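import Vale.Agent.P368.Defs
import Vale.Agent.P368.Main

open Vale.Agent.P368

/-- No family of constant-depth circuits on polynomially many qubits computes parity with a fixed
worst-case advantage. -/
theorem Vale.Agent.Results.P368.ParityNotQAC0.result :
    ¬ ∃ (ε : ℝ) (d : ℕ) (p : Polynomial ℕ) (N : ℕ → ℕ) (C : ∀ n, List (Layer (N n)))
        (o : ∀ n, Fin (N n)), 0 < ε ∧ ∀ n : ℕ, n ≤ N n ∧ N n ≤ p.eval n ∧ (C n).length ≤ d ∧
          ∀ x : Fin n → Bool, 1 / 2 + ε ≤ outProb (C n) (o n) x (parity x) := by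
  rintro ⟨ε, d, p, N, C, o, hε, h⟩
  obtain ⟨n, hn⟩ := worst_case d p hε
  obtain ⟨h1, h2, h3, h4⟩ := h n
  obtain ⟨x, hx⟩ := hn n le_rfl (N n) h1 h2 (C n) h3 (o n)
  exact absurd (h4 x) (not_le.2 hx)
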