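import Vale.Agent.P368.Defs
import Vale.Agent.P368.Main

open Vale.Agent.P368

/-- For constant depth and polynomially many qubits, for all large `n` the parity correlation is at
most `ε` in absolute value and some input is answered correctly with probability below `1/2 + ε`. -/
theorem Vale.Agent.Results.P368.Strong.result (d : ℕ) (p : Polynomial ℕ) (ε : ℝ) (hε : 0 < ε) :
    ∃ n₀ : ℕ, ∀ n : ℕ, n₀ ≤ n → ∀ N : ℕ, n ≤ N → N ≤ p.eval n → ∀ C : List (Layer N),
      C.length ≤ d → ∀ o : Fin N,
        |(∑ x : Fin n → Bool, (outProb C o x (parity x) - outProb C o x (!parity x))) / 2 ^ n| ≤ ε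
          ∧ ∃ x : Fin n → Bool, outProb C o x (parity x) < 1 / 2 + ε := by
  obtain ⟨n₁, h₁⟩ := correlation_small d p hε
  obtain ⟨n₂, h₂⟩ := worst_case d p hε
  refine ⟨max n₁ n₂, fun n hn N hnN hN C hC o =>
    ⟨?_, h₂ n (le_of_max_le_right hn) N hnN hN C hC o⟩⟩
  rw [abs_div, abs_of_pos (by positivity : (0 : ℝ) < 2 ^ n), div_le_iff₀ (by positivity)]
  exact h₁ n (le_of_max_le_left hn) N hnN hN C hC o
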